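import Vale.Agent.P011UF2.Defs
import Vale.Agent.P011UGB1.Su

/-!
Forms of the special linear group of degree six whose index divides three.
-/

set_option autoImplicit false
set_option linter.all false

open Matrix

namespace Vale.Agent.P011UF2g

open Vale.Agent.P011L Vale.Agent.P011LT Vale.Agent.P011LB Vale.Agent.P011UGB1

variable {k K : Type} [Field k] [Field K] [Algebra k K] {n : ℕ}
  {o : (K ≃ₐ[k] K) →* ℤˣ} {M : (K ≃ₐ[k] K) → GL (Fin n) K} {T : Tw k (SA K n)}

variable (o M) in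
/-- The action on pairs of matrices. -/
def pp (σ : K ≃ₐ[k] K) : BB n K →+* BB n K :=
  if o σ = 1 then (cj (M σ) σ).prodMap (cj (ti (M σ)) σ)
  else ((cj (M σ) σ).comp (.snd _ _)).prod ((cj (ti (M σ)) σ).comp (.fst _ _))

theorem pp_in {σ : K ≃ₐ[k] K} (e : o σ = 1) (x : BB n K) :
    pp o M σ x = (cj (M σ) σ x.1, cj (ti (M σ)) σ x.2) := by
  rw [pp, if_pos e]
  rfl

theorem pp_out {σ : K ≃ₐ[k] K} (e : o σ ≠ 1) (x : BB n K) :
    pp o M σ x = (cj (M σ) σ x.2, cj (ti (M σ)) σ x.1) := by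
  rw [pp, if_neg e]
  rfl

theorem ex (h : P011UF2.Rp o T M) (σ : K ≃ₐ[k] K) : Ex T σ (pp o M σ) := by
  have k1 : (∀ x, pp o M σ (st x) = st (pp o M σ x)) →
      (∀ g, (pp o M σ (t0 g)).1 * (M σ).1 = (t0 (T.a σ g)).1 * (M σ).1) →
      ∀ g, pp o M σ (t0 g) = t0 (T.a σ g) := fun a b g => by
    refine Prod.ext ((M σ).isUnit.mul_right_cancel (b g)) (transpose_injective ?_)
    have := (M σ).isUnit.mul_right_cancel (b g⁻¹)
    rwa [map_inv (T.a σ), th_inv, th_inv, a] at this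
  have k2 := fun g => congrArg Units.val (h σ g)
  by_cases e : o σ = 1
  · have k3 : ∀ x, pp o M σ (st x) = st (pp o M σ x) := fun x => by
      rw [pp_in e, pp_in e]
      exact Prod.ext (transpose_injective (cj_tr _ _ x.2ᵀ).symm) (cj_tr _ _ x.1)
    simp only [P011LE.st, if_pos e] at k2
    refine ⟨fun c x => ?_, k3, k1 k3 fun g => ?_, .inl ?_⟩
    · rw [pp_in e, pp_in e]
      exact Prod.ext (cj_smul _ _ _ _) (cj_smul _ _ _ _)
    · rw [pp_in e]
      exact (cj_mul _ _ _).trans (k2 g).symm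
    · rw [pp_in e, map_one, map_zero]
  · have k3 : ∀ x, pp o M σ (st x) = st (pp o M σ x) := fun x => by
      rw [pp_out e, pp_out e]
      exact Prod.ext (transpose_injective (cj_tr _ _ x.1ᵀ).symm) (cj_tr _ _ x.2)
    simp only [P011LE.st, if_neg e] at k2
    refine ⟨fun c x => ?_, k3, k1 k3 fun g => ?_, .inr ⟨M σ, fun x => ?_⟩⟩
    · rw [pp_out e, pp_out e]
      exact Prod.ext (cj_smul _ _ _ _) (cj_smul _ _ _ _)
    · rw [pp_out e]
      exact (cj_mul _ _ _).trans (k2 g).symm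
    · rw [pp_out e]
      exact cj_mul _ _ _

theorem pp_mul (hn : 3 ≤ n) (h : P011UF2.Rp o T M) (σ τ : K ≃ₐ[k] K) (x : BB n K) :
    pp o M (σ * τ) x = pp o M σ (pp o M τ x) :=
  ext_p hn (q := (pp o M σ).comp (pp o M τ)) (ex h _).smul
    (fun c x => by rw [RingHom.comp_apply, (ex h τ).smul, (ex h σ).smul]; rfl) (fun g => by
      rw [RingHom.comp_apply, (ex h τ).th, (ex h σ).th, (ex h _).th, map_mul]; rfl) x

theorem cj_fix {E : Mn n K} (hE : P011LE.InB o M E) {σ : K ≃ₐ[k] K} (e : o σ = 1) :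
    cj (M σ) σ E = E :=
  (M σ).isUnit.mul_right_cancel ((cj_mul _ _ _).trans (hE σ e).symm)

theorem id_mul {E : Mn n K} (h : E * E = E) (a b c d : K) :
    (a • E + b • (1 - E)) * (c • E + d • (1 - E)) = (a * c) • E + (b * d) • (1 - E) := by
  have h1 : E * (1 - E) = 0 := by rw [mul_sub, mul_one, h, sub_self]
  have h2 : (1 - E) * E = 0 := by rw [sub_mul, one_mul, h, sub_self]
  have h3 : (1 - E) * (1 - E) = 1 - E := by rw [mul_sub, mul_one, h2, sub_zero]
  simp only [mul_add, add_mul, smul_mul_assoc, mul_smul_comm, h, h1, h2, h3, smul_smul, smul_zero,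
    add_zero, zero_add, mul_comm c, mul_comm d]

/-- The cocharacters of an idempotent. -/
def lc {E : Mn n K} (h : E * E = E) (a b : ℤ) : Kˣ →* Mn n K where
  toFun t := pw a t • E + pw b t • (1 - E)
  map_one' := by simp [pw]
  map_mul' s t := by rw [id_mul h, pw_mul, pw_mul]

theorem lc_mul {E : Mn n K} (h : E * E = E) (a b c d : ℤ) (s t : Kˣ) :
    lc h a b s * lc h c d t = (pw a s * pw c t) • E + (pw b s * pw d t) • (1 - E) :=
  id_mul h _ _ _ _

theorem inner [Infinite K] (hn : n ≠ 0) (h : P011UF2.Rp o T M) (ho : ∀ σ, o σ = 1) {E : Mn n K}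
    (hE : P011LE.InB o M E) (e2 : E * E = E) (e0 : E ≠ 0) (e1 : 1 - E ≠ 0) : ¬T.Ani := by
  intro an
  have l2 : ∀ a b, (lc e2 a b : Kˣ → Mn n K) ∈ PV (cA K) (Mn n K) := fun a b =>
    pv_add (pv_gen (pw_mem a) _) (pv_gen (pw_mem b) _)
  have l3 : ∀ a b, ∃ r, ∀ t, (lc e2 a b t).det = pw r t := fun a b =>
    scal (L := K) (M := K) (fun _ a => a.isUnit) (detMonoidHom.comp (lc e2 a b)) (pv_det (l2 a b))
  obtain ⟨r, hr⟩ := l3 1 0
  obtain ⟨s, hs⟩ := l3 0 1
  have d1 : ∀ t, (lc e2 s (-r) t).det = 1 := fun t => by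
    have : lc e2 s (-r) t = lc e2 1 0 (t ^ s) * lc e2 0 1 (t ^ (-r)) := by
      rw [lc_mul]
      simp [lc, pw]
    rw [this, det_mul, hr, hs, pw, pw, ← Units.val_mul, ← _root_.zpow_mul, ← _root_.zpow_mul,
      ← _root_.zpow_add, show s * r + -r * s = 0 by ring, zpow_zero, Units.val_one]
  obtain ⟨c, y, hc⟩ := diag (lc e2 s (-r)) (l2 _ _)
  obtain rfl := an c y (fun t => ⟨(lc e2 s (-r)).toHomUnits t, mem_SA.2 (d1 t)⟩) hc fun σ t => by
    refine Subtype.ext (Units.ext ?_)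
    have := congrArg Prod.fst ((ex h σ).th ⟨(lc e2 s (-r)).toHomUnits t, mem_SA.2 (d1 t)⟩)
    rw [pp_in (ho σ)] at this
    refine Eq.trans this.symm ?_
    show cj (M σ) σ (pw s t • E + pw (-r) t • (1 - E)) = pw s _ • E + pw (-r) _ • (1 - E)
    rw [map_add, cj_smul, cj_smul, map_sub, map_one, cj_fix hE (ho σ)]
    simp [pw]
  have h1 : ∀ t, pw s t • E + pw (-r) t • (1 - E) = 1 := fun t =>
    c.isUnit.mul_right_cancel ((hc t).trans (by simp [pw]))
  have s0 : s = 0 := P011LA.zpow_inj (K := K) fun t => Units.ext (smul_left_injective K e0 (by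
    have := congrArg (· * E) (h1 t)
    simpa [add_mul, sub_mul, e2, pw] using this))
  have r0 : -r = 0 := P011LA.zpow_inj (K := K) fun t => Units.ext (smul_left_injective K e1 (by
    have := congrArg (· * (1 - E)) (h1 t)
    simpa [add_mul, sub_mul, mul_sub, e2, pw] using this))
  refine Nat.cast_ne_zero.2 hn (P011LA.zpow_inj (K := K) (m := n) fun t => Units.ext ?_)
  have := congrArg det (lc_mul e2 1 0 0 1 t t)
  rw [det_mul, hr, hs, s0, neg_eq_zero.1 r0] at this
  simpa [pw, ← smul_add] using this.symm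

theorem psh (ia : P011U.IA) (idx : P011UF2.IDX) : P011UF2.PSH := by
  intro k K _ _ _ _ hk T o M κ hM h
  by_cases an : T.Ani
  swap
  · exact ia k K 6 hk (by norm_num) T an
  haveI := P011U.Glob.inf hk
  haveI : Infinite K := .of_injective _ (algebraMap k K).injective
  obtain ⟨E, hE, e2, e3⟩ := idx k K (Fin 6) (Fintype.card_fin 6) o M κ hM
  have e0 : E ≠ 0 := fun e => by simp [e] at e3
  have e1 : 1 - E ≠ 0 := fun e => by simp [← sub_eq_zero.1 e] at e3
  by_cases ho : ∀ σ, o σ = 1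
  · exact absurd an (inner (by norm_num) h ho hE e2 e0 e1)
  obtain ⟨s, hs⟩ := not_forall.1 ho
  have hn : 3 ≤ 6 := by norm_num
  obtain ⟨A, _, _, _, ⟨N⟩⟩ := exists_mt hn (ex h) ⟨s, M s, fun x => by
    rw [pp_out hs]
    exact cj_mul _ _ _⟩
  have f1 : ∀ σ, o σ = 1 → pp o M σ (E, 0) = (E, 0) := fun σ e => by
    rw [pp_in e, cj_fix hE e, map_zero]
  have s1 := (Int.units_eq_one_or (o s)).resolve_left hs
  have f2 : ∀ σ, pp o M σ ((E, 0) + pp o M s (E, 0)) = (E, 0) + pp o M s (E, 0) := fun σ => by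
    rw [map_add, ← pp_mul hn h]
    rcases Int.units_eq_one_or (o σ) with e | e
    · rw [f1 σ e, show σ * s = s * (s⁻¹ * σ * s) by group, pp_mul hn h, f1 _ (by simp [e])]
    · rw [f1 (σ * s) (by simp [e, s1]), show σ = s * (s⁻¹ * σ) by group, pp_mul hn h,
        f1 _ (by simp [e, s1]), add_comm]
  have f3 : (E, 0) + pp o M s (E, 0) = (E, cj (ti (M s)) s E) := by
    rw [pp_out hs, map_zero, Prod.mk_add_mk, add_zero, zero_add]
  rw [f3] at f2
  refine N.ps (ex h) hk hn an (y := 1 - (E, cj (ti (M s)) s E))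
    (fun e => e0 (congrArg Prod.fst e)) (fun e => e1 (congrArg Prod.fst e)) ?_ f2
    fun σ => by rw [map_sub, map_one, f2]
  rw [mul_sub, mul_one, Prod.mk_mul_mk, ← map_mul, e2, sub_self]

end Vale.Agent.P011UF2g
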